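import Mathlib

/-!
# Row 262, NC (helper74), part 0: abstract linear algebra

* `Md S` : a projection of the cone `S` to a surface without lines, injective off its centre;
* `Sys S W` : two such projections, with the description of the common centre;
* `Sys.np` : the cone contains no pencil;
* `Sys.inj3` : both projections are injective on a net whose isotropic vectors lie in the cone.
-/

set_option autoImplicit false

noncomputable section

namespace Crest.Agent.X262.Nc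

variable {V : Type} [AddCommGroup V] [Module ℂ V]

/-- two independent vectors -/
def Ind (a b : V) : Prop := ∀ s t : ℂ, s • a + t • b = 0 → s = 0 ∧ t = 0

theorem Ind.ne {a b : V} (h : Ind a b) : a ≠ 0 := fun h0 =>
  one_ne_zero (h 1 0 (by simp [h0])).1

theorem Ind.symm {a b : V} (h : Ind a b) : Ind b a := fun s t e =>
  (h t s (by rwa [add_comm])).symm

theorem not_ind {a b : V} (h : ¬ Ind a b) :
    ∃ s t : ℂ, s • a + t • b = 0 ∧ ¬ (s = 0 ∧ t = 0) := by
  by_contra! hc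
  exact h hc

/-- a projection of the cone `S` -/
structure Md (S : V → Prop) where
  /-- the projection -/
  p : V →ₗ[ℂ] (Fin 4 → ℂ)
  /-- the equation of the image -/
  Γ : (Fin 4 → ℂ) → ℂ
  cont : Continuous Γ
  nl : ∀ u v, (∀ s t : ℂ, Γ (s • u + t • v) = 0) → ¬ Ind u v
  on : ∀ P, S P → Γ (p P) = 0
  un : ∀ P P', S P → S P' → p P = p P' → p P ≠ 0 → P = P'

/-- two projections -/
structure Sys (S W : V → Prop) where
  /-- the first projection -/
  M : Md S
  /-- the second projection -/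
  N : Md S
  /-- two linear forms -/
  e : Fin 2 → V →ₗ[ℂ] ℂ
  sub : ∀ P, S P → W P
  eM : ∀ P, S P → M.p P = 0 → e 0 P = 0 → N.p P = 0
  eN : ∀ P, S P → N.p P = 0 → e 0 P = 0 → M.p P = 0
  inj : ∀ P, W P → M.p P = 0 → N.p P = 0 → e 0 P = 0 → e 1 P = 0 → P = 0
  two : ∀ P, S P → M.p P = 0 → N.p P = 0 → e 0 P * e 1 P = 0

variable {S W : V → Prop}

theorem Md.pencil (M : Md S) {a b : V} (h : ∀ s t : ℂ, S (s • a + t • b)) (hi : Ind a b) :
    M.p a = 0 := by
  obtain ⟨s, t, h1, h2⟩ := not_ind (M.nl (M.p a) (M.p b) fun s t => by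
    simpa using M.on _ (h s t))
  by_contra h0
  have h3 := M.un _ _ (h 1 0) (h (1 + s) t) (by
    rw [add_smul, add_assoc]
    simp only [map_add, map_smul, h1, zero_smul, map_zero]) (by simpa using h0)
  refine h2 (hi s t ?_)
  rw [add_smul, add_assoc, zero_smul] at h3
  exact (add_left_cancel h3).symm

theorem Sys.np (Z : Sys S W) {a b : V} (h : ∀ s t : ℂ, S (s • a + t • b)) : ¬ Ind a b := by
  intro hi
  have h' : ∀ s t : ℂ, S (s • b + t • a) := fun s t => by rw [add_comm]; exact h t s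
  have hM : ∀ s t : ℂ, Z.M.p (s • a + t • b) = 0 := fun s t => by
    simp [Z.M.pencil h hi, Z.M.pencil h' hi.symm]
  have hN : ∀ s t : ℂ, Z.N.p (s • a + t • b) = 0 := fun s t => by
    simp [Z.N.pencil h hi, Z.N.pencil h' hi.symm]
  have h1 : ∀ s t : ℂ, s * Z.e 0 a + t * Z.e 0 b = 0 → s * Z.e 1 a + t * Z.e 1 b = 0 →
      s = 0 ∧ t = 0 := fun s t e0 e1 =>
    hi s t (Z.inj _ (Z.sub _ (h s t)) (hM s t) (hN s t) (by simpa using e0) (by simpa using e1))
  have h2 := Z.two _ (h (Z.e 1 b - Z.e 0 b) (Z.e 0 a - Z.e 1 a)) (hM _ _) (hN _ _)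
  simp only [map_add, map_smul, smul_eq_mul] at h2
  have hD : Z.e 0 a * Z.e 1 b - Z.e 1 a * Z.e 0 b = 0 :=
    pow_eq_zero_iff (two_ne_zero) |>.1 (by linear_combination h2)
  have h3 := h1 (Z.e 0 b) (-Z.e 0 a) (by ring) (by linear_combination -hD)
  have h4 := h1 (Z.e 1 b) (-Z.e 1 a) (by linear_combination hD) (by ring)
  exact one_ne_zero (h1 1 0 (by simpa using h3.2) (by simpa using h4.2)).1

/-- nets -/
abbrev E3 : Type := Fin 3 → ℂ

theorem dens {U : Type} [AddCommGroup U] [Module ℂ U] (q : E3 →ₗ[ℂ] U) {x₀ : E3} (h₀ : q x₀ ≠ 0)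
    {f : E3 → ℂ} (hf : Continuous f) (h : ∀ x, q x ≠ 0 → f x = 0) (x : E3) : f x = 0 := by
  by_cases hx : q x = 0
  · have h1 : (fun r : ℂ => f (x + r • x₀)) = fun _ => 0 :=
      Continuous.ext_on (dense_compl_singleton 0) (by fun_prop) continuous_const fun r hr =>
        h _ (by simpa [hx, h₀] using hr)
    simpa using congrFun h1 0
  · exact h x hx

theorem exists_two (f : E3 →ₗ[ℂ] ℂ) : ∃ a b, Ind a b ∧ f a = 0 ∧ f b = 0 := by
  have h1 := f.finrank_range_add_finrank_ker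
  have h2 := (LinearMap.range f).finrank_le
  simp only [Module.finrank_self, Module.finrank_fin_fun] at h1 h2
  obtain ⟨v, hv⟩ := exists_linearIndependent_of_le_finrank
    (show 2 ≤ Module.finrank ℂ (LinearMap.ker f) by omega)
  have h3 : LinearIndependent ℂ ![v 0, v 1] := by
    convert hv
    ext i : 1
    fin_cases i <;> rfl
  exact ⟨v 0, v 1, fun s t e => LinearIndependent.pair_iff.1 h3 s t (Subtype.ext e), (v 0).2,
    (v 1).2⟩

variable {B : E3 →ₗ[ℂ] E3 →ₗ[ℂ] ℂ}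

theorem quad (hB : ∀ x y, B x y = B y x) (s t : ℂ) (a b : E3) :
    B (s • a + t • b) (s • a + t • b) = s ^ 2 * B a a + 2 * s * t * B a b + t ^ 2 * B b b := by
  simp only [map_add, map_smul, LinearMap.add_apply, LinearMap.smul_apply, smul_eq_mul, hB b a]
  ring

theorem exists_iso (hB : ∀ x y, B x y = B y x) (f : E3 →ₗ[ℂ] ℂ) :
    ∃ a b, Ind a b ∧ f a = 0 ∧ f b = 0 ∧ B a a = 0 := by
  obtain ⟨a, b, h, ha, hb⟩ := exists_two f
  by_cases h0 : B a a = 0
  · exact ⟨a, b, h, ha, hb, h0⟩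
  obtain ⟨r, hr⟩ := IsAlgClosed.exists_eq_mul_self (B a b ^ 2 - B a a * B b b)
  refine ⟨(r - B a b) • a + B a a • b, a, fun s t e => ?_, by simp [ha, hb], ha, ?_⟩
  · have h1 := h (s * (r - B a b) + t) (s * B a a) (by rw [← e]; module)
    have h2 : s = 0 := (mul_eq_zero.1 h1.2).resolve_right h0
    exact ⟨h2, by simpa [h2] using h1.1⟩
  · rw [quad hB]
    linear_combination -B a a * hr

theorem cont_B (B : E3 →ₗ[ℂ] E3 →ₗ[ℂ] ℂ) : Continuous fun x => B x x := by
  have h : (fun x => B x x) = fun x : E3 => ∑ i, x i * B (Pi.single i 1) x := by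
    ext x
    conv_lhs => rw [show B x = B (∑ i, x i • Pi.single i 1) by rw [← pi_eq_sum_univ' x]]
    simp
  rw [h]
  exact continuous_finsetSum _ fun i _ =>
    (continuous_apply i).mul (B _).continuous_of_finiteDimensional

section net

variable (hB : ∀ x y, B x y = B y x)
  (np : ∀ a b, Ind a b → B a a = 0 → B a b = 0 → B b b = 0 → False) (M : Md fun y => B y y = 0)

include hB np

theorem Md.ker₁ {ζ : E3} (h : M.p ζ = 0) (hζ : B ζ ζ ≠ 0) (x₀ : E3) : M.p x₀ = 0 := by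
  by_contra h₀
  have h1 : ∀ x, B ζ x ^ 2 - B x x * B ζ ζ = 0 := by
    refine dens M.p h₀ (((B ζ).continuous_of_finiteDimensional.pow 2).sub
      ((cont_B B).mul continuous_const)) fun x hx => ?_
    obtain ⟨r, hr⟩ := IsAlgClosed.exists_eq_mul_self (B ζ x ^ 2 - B x x * B ζ ζ)
    have h2 := M.un ((r - B ζ x) • ζ + B ζ ζ • x) ((-r - B ζ x) • ζ + B ζ ζ • x)
      (by rw [quad hB]; linear_combination -B ζ ζ * hr)
      (by rw [quad hB]; linear_combination -B ζ ζ * hr) (by simp [h]) (by simp [h, hζ, hx])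
    have h3 := congrArg (B ζ) (add_right_cancel h2)
    simp only [map_smul, smul_eq_mul] at h3
    have h4 : r = 0 := by linear_combination (mul_right_cancel₀ hζ h3) / 2
    rw [hr, h4, mul_zero]
  have h2 : ∀ x, B ζ x = 0 → B x x = 0 := fun x hx =>
    (mul_eq_zero.1 (show B x x * B ζ ζ = 0 by linear_combination -h1 x + B ζ x * hx)).resolve_right
      hζ
  obtain ⟨a, b, hi, ha, hb⟩ := exists_two (B ζ)
  have h3 := h2 ((1 : ℂ) • a + (1 : ℂ) • b) (by simp [ha, hb])
  rw [quad hB, h2 a ha, h2 b hb] at h3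
  exact np a b hi (h2 a ha) (by linear_combination h3 / 2) (h2 b hb)

theorem Md.ker₂ {ζ : E3} (h : M.p ζ = 0) (h0 : ζ ≠ 0) (x₀ : E3) : M.p x₀ = 0 := by
  by_cases hζ : B ζ ζ = 0
  swap
  · exact M.ker₁ hB np h hζ x₀
  obtain ⟨i, hi⟩ := Function.ne_iff.1 h0
  obtain ⟨a, b, hab, ha, hb, haa⟩ := exists_iso hB (LinearMap.proj i)
  have hI : ∀ y : E3, y ≠ 0 → y i = 0 → Ind ζ y := fun y hy hyi s t e => by
    have h1 := congrFun e i
    simp only [Pi.add_apply, Pi.smul_apply, hyi, smul_eq_mul, mul_zero, add_zero] at h1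
    have h2 : s = 0 := (mul_eq_zero.1 h1).resolve_right hi
    exact ⟨h2, by simpa [h2, hy] using e⟩
  have h1 : B ζ a ≠ 0 := fun h1 => np ζ a (hI a hab.ne ha) hζ h1 haa
  have h2 : ∀ x, M.Γ (M.p x) = 0 := by
    refine dens (B ζ) h1 (M.cont.comp M.p.continuous_of_finiteDimensional) fun x hx => ?_
    have h2 := M.on ((-B x x / (2 * B ζ x)) • ζ + (1 : ℂ) • x) (by
      rw [quad hB, hζ]
      field_simp
      ring)
    simpa [h] using h2
  obtain ⟨s, t, h3, h4⟩ := not_ind (M.nl (M.p a) (M.p b) fun s t => by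
    simpa using h2 (s • a + t • b))
  have h5 : M.p (s • a + t • b) = 0 := by simpa using h3
  have h6 := hI (s • a + t • b) (fun e => h4 (hab s t e))
    (show LinearMap.proj (R := ℂ) (φ := fun _ : Fin 3 => ℂ) i (s • a + t • b) = 0 by
      rw [map_add, map_smul, map_smul, ha, hb, smul_zero, smul_zero, add_zero])
  generalize s • a + t • b = y at h5 h6
  by_cases h7 : B y y = 0
  · refine M.ker₁ hB np (ζ := (1 : ℂ) • ζ + (1 : ℂ) • y) (by simp [h, h5]) (fun e => ?_) x₀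
    rw [quad hB, hζ, h7] at e
    exact np ζ y h6 hζ (by linear_combination e / 2) h7
  · exact M.ker₁ hB np h5 h7 x₀

end net

/-- restriction of a projection to a net -/
def Md.res (M : Md S) (ξ : E3 →ₗ[ℂ] V) (hξ : Function.Injective ξ)
    (hS : ∀ y, B y y = 0 → S (ξ y)) : Md fun y => B y y = 0 where
  p := M.p ∘ₗ ξ
  Γ := M.Γ
  cont := M.cont
  nl := M.nl
  on y hy := M.on _ (hS y hy)
  un y y' hy hy' e h := hξ (M.un _ _ (hS y hy) (hS y' hy') e h)

theorem Ind.map {a b : E3} (h : Ind a b) {ξ : E3 →ₗ[ℂ] V} (hξ : Function.Injective ξ) :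
    Ind (ξ a) (ξ b) := fun s t e => h s t (hξ (by simpa using e))

theorem Sys.inj3 (Z : Sys S W) (hB : ∀ x y, B x y = B y x) (ξ : E3 →ₗ[ℂ] V)
    (hξ : Function.Injective ξ) (hW : ∀ y, W (ξ y)) (hS : ∀ y, B y y = 0 → S (ξ y)) {y : E3}
    (hy : y ≠ 0) : Z.M.p (ξ y) ≠ 0 ∧ Z.N.p (ξ y) ≠ 0 := by
  have np : ∀ a b, Ind a b → B a a = 0 → B a b = 0 → B b b = 0 → False :=
    fun a b h h1 h2 h3 => Z.np (a := ξ a) (b := ξ b) (fun s t => by
      have h4 := hS (s • a + t • b) (by rw [quad hB, h1, h2, h3]; ring)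
      rwa [map_add, map_smul, map_smul] at h4) (h.map hξ)
  obtain ⟨a, b, hab, ha, hb, haa⟩ := exists_iso hB (Z.e 0 ∘ₗ ξ)
  have key : (∀ x, Z.M.p (ξ x) = 0) → (∀ x, Z.N.p (ξ x) = 0) → False := fun hM hN => by
    have h1 : ∀ s t : ℂ, s * Z.e 1 (ξ a) + t * Z.e 1 (ξ b) = 0 → s = 0 ∧ t = 0 := fun s t e =>
      hab s t (hξ ((Z.inj _ (hW (s • a + t • b)) (hM _) (hN _)
        (show (Z.e 0 ∘ₗ ξ) _ = 0 by
          rw [map_add, map_smul, map_smul, ha, hb, smul_zero, smul_zero, add_zero])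
        (by simpa using e)).trans (map_zero ξ).symm))
    have h2 := h1 (Z.e 1 (ξ b)) (-Z.e 1 (ξ a)) (by ring)
    exact one_ne_zero (h1 1 0 (by simpa using h2.2)).1
  constructor <;> intro h
  · have hM := (Z.M.res ξ hξ hS).ker₂ hB np h hy
    exact key hM ((Z.N.res ξ hξ hS).ker₂ hB np (Z.eM _ (hS a haa) (hM a) ha) hab.ne)
  · have hN := (Z.N.res ξ hξ hS).ker₂ hB np h hy
    exact key ((Z.M.res ξ hξ hS).ker₂ hB np (Z.eN _ (hS a haa) (hN a) ha) hab.ne) hN

/-- a chord or a tangent inside a hyperplane -/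
theorem exists_sec (hB : ∀ x y, B x y = B y x) (f : E3 →ₗ[ℂ] ℂ) :
    ∃ a b, Ind a b ∧ f a = 0 ∧ f b = 0 ∧ B a a = 0 ∧ (B a b = 0 ∨ B b b = 0) := by
  obtain ⟨a, b, h, ha, hb, haa⟩ := exists_iso hB f
  by_cases h0 : B a b = 0
  · exact ⟨a, b, h, ha, hb, haa, .inl h0⟩
  refine ⟨a, (-B b b) • a + (2 * B a b) • b, fun s t e => ?_, ha, by simp [ha, hb], haa, .inr ?_⟩
  · have h1 := h (s - t * B b b) (t * (2 * B a b)) (by rw [← e]; module)
    have h2 : t = 0 := (mul_eq_zero.1 h1.2).resolve_right (mul_ne_zero two_ne_zero h0)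
    exact ⟨by simpa [h2] using h1.1, h2⟩
  · rw [quad hB, haa]
    ring

end Crest.Agent.X262.Nc
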