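import Crest.Agent.X262.Nc.Abs
import Crest.Agent.X262.St91.Defs2

/-!
# Row 262, NC (helper74), part 1: no line and no conic

* `md M` : a quartic model as an abstract projection of the cone over the surface;
* `noLine_of`, `noConic_of` : from two projections, and the rank condition on the chords and the
  tangent lines of a hyperplane section.
-/

set_option autoImplicit false

noncomputable section

namespace Crest.Agent.X262.Nc

open Crest.Agent.X262.St91
open Crest.Agent.X262.Pf19 (Om Skew w cols NoLine NoConic)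

/-- `ln` as a linear map -/
def lnL {ι κ : Type} [Fintype κ] (π : ι → κ → ℂ) : (κ → ℂ) →ₗ[ℂ] ι → ℂ where
  toFun P := ln π P
  map_add' P Q := by ext i; simp [ln, mul_add, Finset.sum_add_distrib]
  map_smul' c P := by ext i; simp [ln, Finset.mul_sum, mul_left_comm]

/-- skew tensors killed by the six forms -/
def InW (om : Fin 6 → I2 → ℂ) (P : I2 → ℂ) : Prop := (∀ i j, P (i, j) = -P (j, i)) ∧ ln om P = 0

/-- the cone over the surface -/
def Cone (om : Fin 6 → I2 → ℂ) (P : I2 → ℂ) : Prop := InW om P ∧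
  ∀ i j k l, P (i, j) * P (k, l) - P (i, k) * P (j, l) + P (i, l) * P (j, k) = 0

/-- the polarised Plücker relations -/
def pol (P Q : I2 → ℂ) (i j k l : Fin 6) : ℂ :=
  P (i, j) * Q (k, l) + Q (i, j) * P (k, l) - P (i, k) * Q (j, l) - Q (i, k) * P (j, l) +
    P (i, l) * Q (j, k) + Q (i, l) * P (j, k)

/-- the forms as matrices -/
def cu (om : Fin 6 → I2 → ℂ) : Om := fun a i j => om a (i, j)

/-- the values of the forms on four vectors span at least four dimensions -/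
def Rk (om : Fin 6 → I2 → ℂ) (u : Fin 4 → Fin 6 → ℂ) : Prop :=
  ∀ R : Submodule ℂ (Fin 6 → ℂ), (∀ i j, w (cu om) (u i) (u j) ∈ R) → 4 ≤ Module.finrank ℂ R

variable {om : Fin 6 → I2 → ℂ}

theorem Cone.on {P : I2 → ℂ} (h : Cone om P) (h0 : P ≠ 0) : OnS om P := ⟨h0, h.1.1, h.2, h.1.2⟩

theorem Ind.npar {ι : Type} {a b : ι → ℂ} (h : Ind a b) : ¬ Par a b := fun hp => by
  obtain ⟨i, hi⟩ := Function.ne_iff.1 h.ne
  refine hi (neg_eq_zero.1 (h (b i) (-a i) (funext fun j => ?_)).2)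
  simp only [Pi.add_apply, Pi.smul_apply, smul_eq_mul, Pi.zero_apply]
  linear_combination -hp i j

/-- a quartic model as an abstract projection -/
def md (M : QM om) : Md (Cone om) where
  p := lnL M.π
  Γ x := MvPolynomial.eval x M.Γ
  cont := MvPolynomial.continuous_eval _
  nl u v h hi := hi.npar (M.nl u v h)
  on P hP := by
    by_cases h0 : P = 0
    · rw [h0, map_zero, MvPolynomial.eval_zero, MvPolynomial.constantCoeff_eq]
      exact M.qt.1.coeff_eq_zero (by simp)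
    · exact M.on P (hP.on h0)
  un P P' hP hP' e h := by
    have h0 : P ≠ 0 := fun h0 => h (by rw [h0, map_zero])
    have h0' : P' ≠ 0 := fun h0 => h (by rw [e, h0, map_zero])
    have h1 := M.rel P' (hP'.on h0')
    rw [show ln M.π P' = ln M.π P from e.symm] at h1
    obtain ⟨s, t, h2, h3⟩ := not_ind fun hi : Ind P P' =>
      hi.npar (M.uP _ P P' h (hP.on h0) (hP'.on h0') (M.rel P (hP.on h0)) h1)
    have h4 := congrArg (lnL M.π) h2
    rw [map_add, map_smul, map_smul, ← e, ← add_smul, map_zero, smul_eq_zero] at h4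
    have h5 : t = -s := by linear_combination h4.resolve_right h
    rw [h5, neg_smul, ← sub_eq_add_neg, ← smul_sub, smul_eq_zero] at h2
    exact sub_eq_zero.1 (h2.resolve_left fun h6 => h3 ⟨h6, by rw [h5, h6, neg_zero]⟩)

theorem ln_wd (hs : Skew (cu om)) (u v : Fin 6 → ℂ) :
    lnL om (wd u v) = (2 : ℂ) • w (cu om) u v := by
  rw [two_smul]
  nth_rewrite 2 [hs.swap v u]
  ext a
  simp only [lnL, ln, wd, cu, LinearMap.coe_mk, AddHom.coe_mk, Pi.add_apply, Pi.neg_apply,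
    Pf19.w_apply, Fintype.sum_prod_type, smul_eq_mul,
    Algebra.algebraMap_self, RingHom.id_apply, sub_eq_add_neg, mul_comm (v _) (u _)]
  simp only [mul_add, mul_neg, Finset.sum_add_distrib, Finset.sum_neg_distrib]

theorem noLine_of (Z : Sys (Cone om) (InW om)) (hs : Skew (cu om)) : NoLine ℂ (cu om) := by
  intro u h1 h2 hu
  have e : ∀ s t : ℂ, s • wd (u 0) (u 1) + t • wd (u 0) (u 2) = wd (u 0) (s • u 1 + t • u 2) :=
    fun s t => by ext ij; simp only [wd, Pi.add_apply, Pi.smul_apply, smul_eq_mul]; ring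
  refine Z.np (a := wd (u 0) (u 1)) (b := wd (u 0) (u 2)) (fun s t => ?_) fun s t h => ?_
  · rw [e]
    refine ⟨⟨fun i j => by simp only [wd]; ring, (ln_wd hs _ _).trans ?_⟩,
      fun i j k l => by simp only [wd]; ring⟩
    rw [map_add, map_smul, map_smul, h1, h2, smul_zero, smul_zero, add_zero, smul_zero]
  · rw [e] at h
    obtain ⟨c, d, h3, h4⟩ := not_ind fun hi : Ind (u 0) (s • u 1 + t • u 2) =>
      hi.npar fun i j => sub_eq_zero.1 (congrFun h (i, j))
    have h5 := Fintype.linearIndependent_iff.1 hu ![c, d * s, d * t] (by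
      rw [← h3, Fin.sum_univ_three, smul_add, smul_smul, smul_smul, add_assoc]
      rfl)
    have hd : d ≠ 0 := fun hd => h4 ⟨h5 0, hd⟩
    exact ⟨(mul_eq_zero.1 (h5 1)).resolve_left hd, (mul_eq_zero.1 (h5 2)).resolve_left hd⟩

/-- the second exterior power of a space spanned by four vectors -/
def lam2 (k : Fin 4 → Fin 6 → ℂ) : (Fin 6 → ℂ) →ₗ[ℂ] I2 → ℂ :=
  Fintype.linearCombination ℂ ![wd (k 0) (k 1), wd (k 0) (k 2), wd (k 0) (k 3), wd (k 1) (k 2),
    wd (k 1) (k 3), wd (k 2) (k 3)]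

variable {k : Fin 4 → Fin 6 → ℂ}

theorem lam2_eq (b : Fin 6 → ℂ) : lam2 k b = b 0 • wd (k 0) (k 1) + b 1 • wd (k 0) (k 2) +
    b 2 • wd (k 0) (k 3) + b 3 • wd (k 1) (k 2) + b 4 • wd (k 1) (k 3) + b 5 • wd (k 2) (k 3) := by
  rw [lam2, Fintype.linearCombination_apply, Fin.sum_univ_six]
  rfl

theorem lam2_col (b : Fin 6 → ℂ) (j : Fin 6) : (fun i => lam2 k b (i, j)) =
    ∑ a, ![b 0 * k 1 j + b 1 * k 2 j + b 2 * k 3 j, -b 0 * k 0 j + b 3 * k 2 j + b 4 * k 3 j,
      -b 1 * k 0 j - b 3 * k 1 j + b 5 * k 3 j, -b 2 * k 0 j - b 4 * k 1 j - b 5 * k 2 j] a • k a := by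
  ext i
  simp [lam2_eq, wd, Fin.sum_univ_four]
  ring

theorem lam2_inj (hk : LinearIndependent ℂ k) : Function.Injective (lam2 k) := by
  refine (injective_iff_map_eq_zero _).2 fun b hb => ?_
  have h := fun j => Fintype.linearIndependent_iff.1 hk _ ((lam2_col b j).symm.trans (by
    rw [hb]; rfl))
  have h0 := Fintype.linearIndependent_iff.1 hk ![0, b 0, b 1, b 2] (funext fun j => by
    simpa [Fin.sum_univ_four] using h j 0)
  have h3 := Fintype.linearIndependent_iff.1 hk ![-b 2, -b 4, -b 5, 0] (funext fun j => by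
    simpa [Fin.sum_univ_four, sub_eq_add_neg] using h j 3)
  have h1 := Fintype.linearIndependent_iff.1 hk ![-b 0, 0, b 3, b 4] (funext fun j => by
    simpa [Fin.sum_univ_four] using h j 1)
  ext j
  fin_cases j
  exacts [h0 1, h0 2, h0 3, h1 2, h1 3, neg_eq_zero.1 (h3 2)]

/-- the polar form of the Plücker quadric -/
def bq : (Fin 6 → ℂ) →ₗ[ℂ] (Fin 6 → ℂ) →ₗ[ℂ] ℂ :=
  LinearMap.mk₂ ℂ (fun b c => b 0 * c 5 + b 5 * c 0 - b 1 * c 4 - b 4 * c 1 + b 2 * c 3 + b 3 * c 2)
    (fun _ _ _ => by simp only [Pi.add_apply]; ring)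
    (fun _ _ _ => by simp only [Pi.smul_apply, smul_eq_mul]; ring)
    (fun _ _ _ => by simp only [Pi.add_apply]; ring)
    (fun _ _ _ => by simp only [Pi.smul_apply, smul_eq_mul]; ring)

theorem pol_lam2 (b c : Fin 6 → ℂ) (i j m l : Fin 6) : pol (lam2 k b) (lam2 k c) i j m l =
    pol (wd (k 0) (k 1)) (wd (k 2) (k 3)) i j m l * bq b c := by
  simp only [pol, lam2_eq, bq, wd, LinearMap.mk₂_apply, Pi.add_apply, Pi.smul_apply, smul_eq_mul]
  ring

theorem ln_lam2 (hs : Skew (cu om)) (b : Fin 6 → ℂ) :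
    lnL om (lam2 k b) = (2 : ℂ) • Fintype.linearCombination ℂ (cols (cu om) k) b := by
  rw [lam2_eq, Fintype.linearCombination_apply, Fin.sum_univ_six]
  simp only [map_add, map_smul, ln_wd hs, smul_add, smul_comm (2 : ℂ)]
  rfl

theorem mem_of_cols {K : Submodule ℂ (Fin 6 → ℂ)} {u v a b : Fin 6 → ℂ} (h0 : wd u v ≠ 0)
    (h : ∀ j, v j • a - u j • b ∈ K) : a ∈ K ∧ b ∈ K := by
  obtain ⟨⟨i, j⟩, hij⟩ := Function.ne_iff.1 h0
  have h1 : wd u v (i, j) • a = u i • (v j • a - u j • b) - u j • (v i • a - u i • b) := by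
    simp only [wd]
    module
  have h2 : wd u v (i, j) • b = v i • (v j • a - u j • b) - v j • (v i • a - u i • b) := by
    simp only [wd]
    module
  exact ⟨(K.smul_mem_iff hij).1 (h1 ▸ K.sub_mem (K.smul_mem _ (h j)) (K.smul_mem _ (h i))),
    (K.smul_mem_iff hij).1 (h2 ▸ K.sub_mem (K.smul_mem _ (h j)) (K.smul_mem _ (h i)))⟩

theorem w_mem (hs : Skew (cu om)) {u v : Fin 6 → ℂ} (hu : u ∈ Submodule.span ℂ (Set.range k))
    (hv : v ∈ Submodule.span ℂ (Set.range k)) :
    w (cu om) u v ∈ Submodule.span ℂ (Set.range (cols (cu om) k)) := by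
  have c := fun j => Submodule.subset_span (R := ℂ) (Set.mem_range_self (f := cols (cu om) k) j)
  have n : ∀ {x y : Fin 6 → ℂ}, w (cu om) x y ∈ Submodule.span ℂ (Set.range (cols (cu om) k)) →
      w (cu om) y x ∈ Submodule.span ℂ (Set.range (cols (cu om) k)) := fun h => by
    rw [hs.swap]
    exact neg_mem h
  have z : ∀ x : Fin 6 → ℂ, w (cu om) x x ∈ Submodule.span ℂ (Set.range (cols (cu om) k)) :=
    fun x => by rw [hs.self]; exact zero_mem _
  obtain ⟨x, rfl⟩ := (Submodule.mem_span_range_iff_exists_fun ℂ).1 hu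
  obtain ⟨y, rfl⟩ := (Submodule.mem_span_range_iff_exists_fun ℂ).1 hv
  simp only [map_sum, map_smul, LinearMap.sum_apply, LinearMap.smul_apply]
  refine sum_mem fun b _ => Submodule.smul_mem _ _ (sum_mem fun a _ => Submodule.smul_mem _ _ ?_)
  fin_cases a <;> fin_cases b
  exacts [z _, c 0, c 1, c 2, n (c 0), z _, c 3, c 4, n (c 1), n (c 3), z _, c 5, n (c 2), n (c 4),
    n (c 5), z _]

theorem noConic_of (Z : Sys (Cone om) (InW om)) (hs : Skew (cu om)) (f : (I2 → ℂ) →ₗ[ℂ] ℂ)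
    (chord : ∀ P P', OnS om P → OnS om P' → f P = 0 → f P' = 0 → Z.M.p P ≠ 0 → Z.N.p P ≠ 0 →
      Z.M.p P' ≠ 0 → Z.N.p P' ≠ 0 → ¬ Par P P' →
        ∃ u : Fin 4 → Fin 6 → ℂ, P = wd (u 0) (u 1) ∧ P' = wd (u 2) (u 3) ∧ Rk om u)
    (tang : ∀ P Q, OnS om P → InW om Q → (∀ i j m l, pol P Q i j m l = 0) → f P = 0 → f Q = 0 →
      Z.M.p P ≠ 0 → Z.N.p P ≠ 0 → ¬ Par P Q → ∃ u : Fin 4 → Fin 6 → ℂ,
        P = wd (u 0) (u 1) ∧ Q = wd (u 2) (u 1) + wd (u 0) (u 3) ∧ Rk om u) :
    NoConic ℂ (cu om) := by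
  intro k hk β h1 hβ
  let L := Fintype.linearCombination ℂ β
  let C := Fintype.linearCombination ℂ (cols (cu om) k)
  have hC : ∀ l, C (β l) = 0 := fun l => (Fintype.linearCombination_apply ..).trans (h1 l)
  have hξ : Function.Injective (lam2 k ∘ₗ L) :=
    (lam2_inj hk).comp hβ.fintypeLinearCombination_injective
  have hB : ∀ x y, bq.compl₁₂ L L x y = bq.compl₁₂ L L y x := fun x y => by
    simp only [bq, LinearMap.compl₁₂_apply, LinearMap.mk₂_apply]
    ring
  have hW : ∀ y, InW om ((lam2 k ∘ₗ L) y) := fun y => ⟨fun i j => by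
    simp only [LinearMap.comp_apply, lam2_eq, wd, Pi.add_apply, Pi.smul_apply, smul_eq_mul]
    ring, (ln_lam2 hs _).trans (by
      change (2 : ℂ) • C (∑ l, y l • β l) = 0
      rw [map_sum]
      simp only [map_smul, hC, smul_zero, Finset.sum_const_zero])⟩
  have hP : ∀ x y, bq.compl₁₂ L L x y = 0 → ∀ i j m l,
      pol ((lam2 k ∘ₗ L) x) ((lam2 k ∘ₗ L) y) i j m l = 0 := fun x y h i j m l =>
    (pol_lam2 ..).trans (mul_eq_zero_of_right _ h)
  have hS : ∀ y, bq.compl₁₂ L L y y = 0 → Cone om ((lam2 k ∘ₗ L) y) := fun y h =>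
    ⟨hW y, fun i j m l => by
      have h2 := hP y y h i j m l
      rw [pol] at h2
      linear_combination h2 / 2⟩
  have hK : ∀ y j, (fun i => (lam2 k ∘ₗ L) y (i, j)) ∈ Submodule.span ℂ (Set.range k) :=
    fun y j => (Submodule.mem_span_range_iff_exists_fun ℂ).2 ⟨_, (lam2_col _ j).symm⟩
  have hK' : ∀ y u v, (lam2 k ∘ₗ L) y = wd u v → y ≠ 0 → u ∈ Submodule.span ℂ (Set.range k) ∧
      v ∈ Submodule.span ℂ (Set.range k) := fun y u v e hy =>
    mem_of_cols (u := u) (v := v) (fun h => hy (hξ (by rw [e, h, map_zero]))) fun j => by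
      convert hK y j using 1
      ext i
      simp only [e, wd, Pi.sub_apply, Pi.smul_apply, smul_eq_mul]
      ring
  have fin : ∀ u : Fin 4 → Fin 6 → ℂ, Rk om u → u 0 ∈ Submodule.span ℂ (Set.range k) →
      u 1 ∈ Submodule.span ℂ (Set.range k) → u 2 ∈ Submodule.span ℂ (Set.range k) →
      u 3 ∈ Submodule.span ℂ (Set.range k) → False := fun u hu h0 h1 h2 h3 => by
    have h4 : ∀ i, u i ∈ Submodule.span ℂ (Set.range k) := fun i => by
      fin_cases i
      exacts [h0, h1, h2, h3]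
    have h5 := hu _ fun i j => w_mem hs (h4 i) (h4 j)
    have h6 := C.finrank_range_add_finrank_ker
    have h7 := (LinearIndependent.of_comp (v := fun l => (⟨β l, hC l⟩ : LinearMap.ker C))
      (LinearMap.ker C).subtype hβ).fintype_card_le_finrank
    rw [Fintype.range_linearCombination, Module.finrank_fin_fun] at h6
    rw [Fintype.card_fin] at h7
    omega
  obtain ⟨a, b, hab, ha, hb, haa, h2⟩ := exists_sec hB (f ∘ₗ lam2 k ∘ₗ L)
  have hI := hab.map hξ
  have pa := Z.inj3 hB _ hξ hW hS hab.ne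
  have pb := Z.inj3 hB _ hξ hW hS hab.symm.ne
  rcases h2 with h2 | h2
  · obtain ⟨u, e1, e2, hu⟩ := tang _ _ ((hS a haa).on hI.ne) (hW b) (hP a b h2) ha hb pa.1 pa.2
      hI.npar
    obtain ⟨h0, h1⟩ := hK' a _ _ e1 hab.ne
    obtain ⟨h3, h4⟩ := mem_of_cols (u := u 0) (v := u 1) (a := u 2) (b := u 3)
      (K := Submodule.span ℂ (Set.range k)) (e1 ▸ hI.ne) fun j => by
        convert Submodule.sub_mem _ (Submodule.add_mem _ (hK b j) (Submodule.smul_mem _ (u 2 j) h1))
          (Submodule.smul_mem _ (u 3 j) h0) using 1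
        ext i
        simp only [e2, wd, Pi.add_apply, Pi.sub_apply, Pi.smul_apply, smul_eq_mul]
        ring
    exact fin u hu h0 h1 h3 h4
  · obtain ⟨u, e1, e2, hu⟩ := chord _ _ ((hS a haa).on hI.ne) ((hS b h2).on hI.symm.ne) ha hb pa.1
      pa.2 pb.1 pb.2 hI.npar
    exact fin u hu (hK' a _ _ e1 hab.ne).1 (hK' a _ _ e1 hab.ne).2 (hK' b _ _ e2 hab.symm.ne).1
      (hK' b _ _ e2 hab.symm.ne).2

end Crest.Agent.X262.Nc
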