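import Crest.Agent.X262.Nc.Cnc
import Crest.Agent.X262.Cert63.Defs

/-!
# Row 262, NC (helper74), part 2: `Cert63.NcStmt`
-/

set_option autoImplicit false

noncomputable section

namespace Crest.Agent.X262.Nc

open Crest.Agent.X262.St91

variable {om : Fin 6 → I2 → ℂ} {G : Geo om}

/-- the two projections of the example -/
def sys (T : Cert63.Thd G) : Sys (Cone om) (InW om) where
  M := md G.M
  N := md G.N
  e k := LinearMap.proj k ∘ₗ lnL T.e
  sub _ h := h.1
  eM P hP h1 h2 := by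
    by_cases h0 : P = 0
    · rw [h0, map_zero]
    · exact T.eM P (hP.on h0) h1 0 h2
  eN P hP h1 h2 := by
    by_cases h0 : P = 0
    · rw [h0, map_zero]
    · exact T.eN P (hP.on h0) h1 0 h2
  inj P hP h1 h2 h3 h4 := T.inj P hP h1 h2 (funext fun k => by
    fin_cases k
    exacts [h3, h4])
  two P hP h1 h2 := by
    by_cases h0 : P = 0
    · rw [h0, map_zero, zero_mul]
    · exact T.two P (hP.on h0) h1 h2

/-- **no line and no conic** -/
theorem ncStmt : Cert63.NcStmt := by
  rintro om G ⟨T⟩ hs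
  have hl : ∀ P : I2 → ℂ, (LinearMap.proj 0 ∘ₗ lnL T.lam : (I2 → ℂ) →ₗ[ℂ] ℂ) P = 0 →
      ln T.lam P = 0 := fun P h => funext fun k => by
    fin_cases k
    exact h
  refine ⟨noLine_of (sys T) hs, noConic_of (sys T) hs (LinearMap.proj 0 ∘ₗ lnL T.lam)
    (fun P P' h1 h2 h3 h4 => T.chord P P' h1 h2 (hl P h3) (hl P' h4))
    fun P Q h1 h2 h3 h4 h5 => T.tang P Q h1 h2 (fun i j k l => ?_) (hl P h4) (hl Q h5)⟩
  have h6 := h3 i j k l
  rw [pol] at h6
  linear_combination h6

end Crest.Agent.X262.Nc
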